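import Crest.Agent.R340.LaughlinKer

set_option autoImplicit false

open Crest.MathPhysics.Laughlin
open scoped BigOperators

namespace Crest.Agent.R340

variable {q N : ℕ}

theorem upd2_comp (π : Equiv.Perm (Fin N)) (m : Fin N → Fin (q + 1)) (a b : Fin N)
    (i j : Fin (q + 1)) : upd2 (m ∘ π) a b i j = (upd2 m (π a) (π b) i j) ∘ π := by
  funext c
  simp only [upd2, Function.update_apply, Function.comp, EmbeddingLike.apply_eq_iff_eq]

theorem upd2_comm {a b : Fin N} (h : a ≠ b) (m : Fin N → Fin (q + 1)) (i j : Fin (q + 1)) :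
    upd2 m b a i j = upd2 m a b j i := by
  unfold upd2
  rw [Function.update_comm h]

theorem amp_comp (π : Equiv.Perm (Fin N)) {ψ : (Fin N → Fin (q + 1)) → ℂ}
    (hψ : IsAntisymmetric ψ) (a b : Fin N) (p : Fin (2 * q - 1)) (m : Fin N → Fin (q + 1)) :
    amp a b p ψ (m ∘ π) = ((Equiv.Perm.sign π : ℤ) : ℂ) * amp (π a) (π b) p ψ m := by
  unfold amp
  rw [Finset.mul_sum]
  refine Finset.sum_congr rfl fun i _ => ?_
  rw [Finset.mul_sum]
  refine Finset.sum_congr rfl fun j _ => ?_
  rw [upd2_comp, hψ π]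
  ring

theorem amp_swap {a b : Fin N} (h : a ≠ b) (p : Fin (2 * q - 1))
    (ψ : (Fin N → Fin (q + 1)) → ℂ) (m : Fin N → Fin (q + 1)) :
    amp b a p ψ m = - amp a b p ψ m := by
  unfold amp
  rw [Finset.sum_comm, ← Finset.sum_neg_distrib]
  refine Finset.sum_congr rfl fun i _ => ?_
  rw [← Finset.sum_neg_distrib]
  refine Finset.sum_congr rfl fun j _ => ?_
  rw [upd2_comm h, pairVec_swap]
  push_cast
  ring

theorem two_mul_sum_lt (t : Fin N → Fin N → ℂ) (ht : ∀ a b, a ≠ b → t b a = t a b) :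
    2 * (∑ a, ∑ b, if a < b then t a b else 0) = ∑ a, ∑ b, if a ≠ b then t a b else 0 := by
  have h1 : (∑ a, ∑ b, if a < b then t a b else 0) = ∑ a, ∑ b, if b < a then t a b else 0 := by
    rw [Finset.sum_comm]
    refine Finset.sum_congr rfl fun a _ => Finset.sum_congr rfl fun b _ => ?_
    split_ifs with h
    · exact ht a b h.ne'
    · rfl
  rw [two_mul]
  nth_rewrite 2 [h1]
  rw [← Finset.sum_add_distrib]
  refine Finset.sum_congr rfl fun a _ => ?_
  rw [← Finset.sum_add_distrib]
  refine Finset.sum_congr rfl fun b _ => ?_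
  rcases lt_trichotomy a b with h | h | h
  · simp [h, h.ne, h.not_gt]
  · simp [h]
  · simp [h, h.ne', h.not_gt]

theorem sum_lt_perm (π : Equiv.Perm (Fin N)) (t : Fin N → Fin N → ℂ)
    (ht : ∀ a b, a ≠ b → t b a = t a b) :
    (∑ a, ∑ b, if a < b then t (π a) (π b) else 0) = ∑ a, ∑ b, if a < b then t a b else 0 := by
  have h1 := two_mul_sum_lt (fun a b => t (π a) (π b)) (fun a b hab =>
    ht _ _ (fun h => hab (π.injective h)))
  have h2 := two_mul_sum_lt t ht
  have h3 : (∑ a, ∑ b, if a ≠ b then t (π a) (π b) else 0) = ∑ a, ∑ b, if a ≠ b then t a b else 0 := by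
    rw [← Equiv.sum_comp π (fun a => ∑ b, if a ≠ b then t a b else 0)]
    refine Finset.sum_congr rfl fun a _ => ?_
    rw [← Equiv.sum_comp π (fun b => if π a ≠ b then t (π a) b else 0)]
    refine Finset.sum_congr rfl fun b _ => ?_
    simp
  have h4 : (2 : ℂ) * (∑ a, ∑ b, if a < b then t (π a) (π b) else 0) =
      2 * ∑ a, ∑ b, if a < b then t a b else 0 := by
    rw [h2, ← h3]; exact h1
  exact mul_left_cancel₀ two_ne_zero h4

/-- The interaction preserves antisymmetry. -/
theorem interaction_antisymm {ψ : (Fin N → Fin (q + 1)) → ℂ} (hψ : IsAntisymmetric ψ) :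
    IsAntisymmetric ((interaction q N).mulVec ψ) := by
  intro π m
  have key : ∀ m : Fin N → Fin (q + 1), (interaction q N).mulVec ψ m =
      ∑ a, ∑ b, if a < b then
        (∑ p : Fin (2 * q - 1), (pairVec q p (m a) (m b) : ℂ) * amp a b p ψ m) else 0 := by
    intro m
    rw [interaction_mulVec]
    simp only [Finset.sum_apply]
    refine Finset.sum_congr rfl fun a _ => Finset.sum_congr rfl fun b _ => ?_
    split_ifs with h
    · exact pairProj_mulVec h.ne ψ m
    · rfl
  rw [key, key]
  have h1 := sum_lt_perm π (fun a b =>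
    ∑ p : Fin (2 * q - 1), (pairVec q p (m a) (m b) : ℂ) * amp a b p ψ m) (by
      intro a b hab
      refine Finset.sum_congr rfl fun p _ => ?_
      rw [amp_swap hab, pairVec_swap]
      push_cast
      ring)
  rw [← h1, Finset.mul_sum]
  refine Finset.sum_congr rfl fun a _ => ?_
  rw [Finset.mul_sum]
  refine Finset.sum_congr rfl fun b _ => ?_
  split_ifs with h
  · rw [Finset.mul_sum]
    refine Finset.sum_congr rfl fun p _ => ?_
    rw [amp_comp π hψ]
    simp only [Function.comp]
    ring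
  · simp

/-- The space of antisymmetric coefficient functions. -/
def antiSub (q N : ℕ) : Submodule ℂ (EuclideanSpace ℂ (Fin N → Fin (q + 1))) where
  carrier := {ψ | IsAntisymmetric (WithLp.ofLp ψ)}
  add_mem' := by
    intro x y hx hy π m
    simp only [Set.mem_ofPred_eq] at hx hy
    have h1 := hx π m
    have h2 := hy π m
    simp only [WithLp.ofLp_add, Pi.add_apply]
    rw [h1, h2]; ring
  zero_mem' := by
    intro π m
    simp
  smul_mem' := by
    intro c x hx π m
    have h1 := hx π m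
    simp only [WithLp.ofLp_smul, Pi.smul_apply, smul_eq_mul]
    rw [h1]; ring

theorem inner_eq_dot {ι : Type*} [Fintype ι] (x y : EuclideanSpace ℂ ι) :
    inner ℂ x y = star (WithLp.ofLp x) ⬝ᵥ (WithLp.ofLp y) := by
  rw [EuclideanSpace.inner_eq_star_dotProduct, dotProduct_comm]

/-- Abstract spectral step: a positive symmetric operator on a finite-dimensional space with
trivial kernel and `T² ≥ γ T` satisfies `T ≥ γ`. -/
theorem ge_of_sq_ge {W : Type*} [NormedAddCommGroup W] [InnerProductSpace ℂ W]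
    [FiniteDimensional ℂ W] (T : W →ₗ[ℂ] W) (hT : T.IsSymmetric) (γ : ℝ)
    (hpos : ∀ x, 0 ≤ (inner ℂ x (T x)).re) (hker : ∀ x, T x = 0 → x = 0)
    (hsq : ∀ x, γ * (inner ℂ x (T x)).re ≤ (inner ℂ x (T (T x))).re) (x : W) :
    γ * ‖x‖ ^ 2 ≤ (inner ℂ x (T x)).re := by
  set n := Module.finrank ℂ W with hn
  set b := hT.eigenvectorBasis hn.symm with hb
  have hev : ∀ i, T (b i) = ((hT.eigenvalues hn.symm i : ℝ) : ℂ) • b i := fun i =>
    hT.apply_eigenvectorBasis hn.symm i
  have hnorm : ∀ i, inner ℂ (b i) (b i) = (1 : ℂ) := by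
    intro i
    rw [inner_self_eq_norm_sq_to_K, b.orthonormal.1 i]; simp
  have hlam : ∀ i, γ ≤ hT.eigenvalues hn.symm i := by
    intro i
    set lam := hT.eigenvalues hn.symm i with hlamdef
    have h1 : inner ℂ (b i) (T (b i)) = (lam : ℂ) := by
      rw [hev, inner_smul_right, hnorm, mul_one]
    have h2 : inner ℂ (b i) (T (T (b i))) = ((lam * lam : ℝ) : ℂ) := by
      rw [hev, map_smul, hev, inner_smul_right, inner_smul_right, hnorm]
      push_cast; ring
    have h3 := hpos (b i)
    rw [h1, Complex.ofReal_re] at h3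
    have h4 := hsq (b i)
    rw [h1, h2, Complex.ofReal_re, Complex.ofReal_re] at h4
    have h5 : lam ≠ 0 := by
      intro h0
      have h6 : T (b i) = 0 := by rw [hev, ← hlamdef, h0]; simp
      have h7 := hker _ h6
      have h8 := hnorm i
      rw [h7] at h8
      simp at h8
    have h6 : 0 < lam := lt_of_le_of_ne h3 (Ne.symm h5)
    exact le_of_mul_le_mul_right h4 h6
  have hx : inner ℂ x (T x) = ∑ i, (((hT.eigenvalues hn.symm i) * ‖inner ℂ (b i) x‖ ^ 2 : ℝ) : ℂ) := by
    rw [← b.sum_inner_mul_inner x (T x)]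
    refine Finset.sum_congr rfl fun i _ => ?_
    have h1 : inner ℂ (b i) (T x) = ((hT.eigenvalues hn.symm i : ℝ) : ℂ) * inner ℂ (b i) x := by
      rw [← hT (b i) x, hev, inner_smul_left, Complex.conj_ofReal]
    rw [h1]
    have h2 : inner ℂ x (b i) * inner ℂ (b i) x = ((‖inner ℂ (b i) x‖ ^ 2 : ℝ) : ℂ) := by
      rw [← inner_conj_symm x (b i), ← Complex.normSq_eq_conj_mul_self,
        Complex.normSq_eq_norm_sq]
    push_cast at h2 ⊢
    linear_combination ((hT.eigenvalues hn.symm i : ℝ) : ℂ) * h2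
  rw [hx, ← Complex.ofReal_sum, Complex.ofReal_re, ← b.sum_sq_norm_inner_right x,
    Finset.mul_sum]
  refine Finset.sum_le_sum fun i _ => ?_
  exact mul_le_mul_of_nonneg_right (hlam i) (by positivity)

end Crest.Agent.R340
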