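import Crest.Agent.R340.Gap

set_option autoImplicit false

open Crest.MathPhysics.Laughlin
open scoped BigOperators

namespace Crest.Agent.R340

variable {q N : ℕ}

/-- The `N`-particle state space. -/
abbrev St (q N : ℕ) : Type := EuclideanSpace ℂ (Fin N → Fin (q + 1))

/-- The interaction as a linear map on the Euclidean space. -/
noncomputable def Hlin (q N : ℕ) : EuclideanSpace ℂ (Fin N → Fin (q + 1)) →ₗ[ℂ]
    EuclideanSpace ℂ (Fin N → Fin (q + 1)) :=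
  Matrix.toEuclideanLin (interaction q N)

theorem ofLp_Hlin (x : EuclideanSpace ℂ (Fin N → Fin (q + 1))) :
    WithLp.ofLp (Hlin q N x) = (interaction q N).mulVec (WithLp.ofLp x) := rfl

theorem inner_Hlin (x y : EuclideanSpace ℂ (Fin N → Fin (q + 1))) :
    inner ℂ x (Hlin q N y) =
      star (WithLp.ofLp x) ⬝ᵥ (interaction q N).mulVec (WithLp.ofLp y) := by
  rw [inner_eq_dot, ofLp_Hlin]

theorem Hlin_symm : (Hlin q N).IsSymmetric := by
  intro x y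
  rw [← inner_conj_symm (𝕜 := ℂ) (Hlin q N x) y, inner_Hlin, inner_Hlin,
    dot_interaction_symm (WithLp.ofLp x) (WithLp.ofLp y)]
  rfl

theorem star_dot_self (ψ : (Fin N → Fin (q + 1)) → ℂ) :
    (star ψ ⬝ᵥ ψ).re = ‖(WithLp.toLp 2 ψ : EuclideanSpace ℂ (Fin N → Fin (q + 1)))‖ ^ 2 := by
  have h := inner_eq_dot (WithLp.toLp 2 ψ : EuclideanSpace ℂ (Fin N → Fin (q + 1)))
    (WithLp.toLp 2 ψ)
  rw [← h, inner_self_eq_norm_sq_to_K]
  norm_cast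

/-- The gap above a state spanning the kernel, from the operator inequality `H² ≥ γ H`. -/
theorem gap_of_sq_aux (q N : ℕ) (γ : ℝ) (hne : laughlin q N ≠ 0)
    (hkerspan : ∀ ψ : (Fin N → Fin (q + 1)) → ℂ, IsAntisymmetric ψ →
      (star ψ ⬝ᵥ (interaction q N).mulVec ψ).re = 0 → ∃ t : ℂ, ψ = t • laughlin q N)
    (hsq : ∀ ψ : (Fin N → Fin (q + 1)) → ℂ, IsAntisymmetric ψ →
      γ * (star ψ ⬝ᵥ (interaction q N).mulVec ψ).re ≤
        (star ψ ⬝ᵥ (interaction q N).mulVec ((interaction q N).mulVec ψ)).re)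
    (ψ : (Fin N → Fin (q + 1)) → ℂ) (hψ : IsAntisymmetric ψ) :
    γ * ((star ψ ⬝ᵥ ψ).re -
            ‖star (laughlin q N) ⬝ᵥ ψ‖ ^ 2 / (star (laughlin q N) ⬝ᵥ laughlin q N).re) ≤
          (star ψ ⬝ᵥ (interaction q N).mulVec ψ).re := by
  set Ψ : St q N := WithLp.toLp 2 (laughlin q N) with hΨ
  set W : Submodule ℂ (St q N) := antiSub q N ⊓ (ℂ ∙ Ψ)ᗮ with hW
  have hΨ0 : Ψ ≠ 0 := by
    intro h
    exact hne (congrArg WithLp.ofLp h)
  have hHΨ : Hlin q N Ψ = 0 := by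
    have : WithLp.ofLp (Hlin q N Ψ) = 0 := by
      rw [ofLp_Hlin]; exact interaction_laughlin q N
    exact (WithLp.ofLp_injective 2) this
  have hinv : ∀ x ∈ W, Hlin q N x ∈ W := by
    intro x hx
    refine ⟨?_, ?_⟩
    · show IsAntisymmetric (WithLp.ofLp (Hlin q N x))
      rw [ofLp_Hlin]
      exact interaction_antisymm hx.1
    · show Hlin q N x ∈ (ℂ ∙ Ψ)ᗮ
      rw [Submodule.mem_orthogonal_singleton_iff_inner_right, ← Hlin_symm, hHΨ, inner_zero_left]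
  set T : W →ₗ[ℂ] W := (Hlin q N).restrict hinv with hT
  have hTcoe : ∀ x : W, ((T x : W) : St q N) = Hlin q N x := fun x => rfl
  have hTsymm : LinearMap.IsSymmetric (𝕜 := ℂ) (E := W) T := by
    intro x y
    exact Hlin_symm (x : St q N) (y : St q N)
  have hinner : ∀ x y : W, inner ℂ x (T y) = inner ℂ (x : St q N) (Hlin q N y) := fun x y => rfl
  have hpos : ∀ x : W, 0 ≤ (inner ℂ x (T x)).re := by
    intro x
    rw [hinner, inner_Hlin]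
    exact dot_interaction_self_nonneg _
  have hker : ∀ x : W, T x = 0 → x = 0 := by
    intro x hx
    have h1 : Hlin q N (x : St q N) = 0 := by
      rw [← hTcoe, hx]; rfl
    have h2 : (star (WithLp.ofLp (x : St q N)) ⬝ᵥ (interaction q N).mulVec (WithLp.ofLp (x : St q N))).re
        = 0 := by
      rw [← inner_Hlin, h1, inner_zero_right]; rfl
    obtain ⟨t, ht⟩ := hkerspan _ x.2.1 h2
    have h3 : (x : St q N) = t • Ψ := (WithLp.ofLp_injective 2) ht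
    have h4 : inner ℂ Ψ (x : St q N) = 0 :=
      (Submodule.mem_orthogonal_singleton_iff_inner_right).1 x.2.2
    rw [h3, inner_smul_right] at h4
    have h5 : inner ℂ Ψ Ψ ≠ (0 : ℂ) := inner_self_ne_zero.2 hΨ0
    have h6 : t = 0 := (mul_eq_zero.1 h4).resolve_right h5
    apply Subtype.ext
    rw [h3, h6, zero_smul]; rfl
  have hsq' : ∀ x : W, γ * (inner ℂ x (T x)).re ≤ (inner ℂ x (T (T x))).re := by
    intro x
    have h1 := hsq (WithLp.ofLp (x : St q N)) x.2.1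
    rw [hinner, hinner, inner_Hlin, inner_Hlin, hTcoe, ofLp_Hlin]
    exact h1
  have key := fun x : W => ge_of_sq_ge T hTsymm γ hpos hker hsq' x
  -- decomposition
  set x0 : St q N := WithLp.toLp 2 ψ with hx0
  set t : ℂ := inner ℂ Ψ x0 / inner ℂ Ψ Ψ with ht
  set y : St q N := x0 - t • Ψ with hy
  have hΨΨ : inner ℂ Ψ Ψ ≠ (0 : ℂ) := inner_self_ne_zero.2 hΨ0
  have hΨy : inner ℂ Ψ y = 0 := by
    rw [hy, inner_sub_right, inner_smul_right, ht, div_mul_cancel₀ _ hΨΨ, sub_self]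
  have hyW : y ∈ W := by
    refine ⟨?_, ?_⟩
    · refine (antiSub q N).sub_mem ?_ ((antiSub q N).smul_mem t ?_)
      · exact hψ
      · exact laughlin_antisymm q N
    · show y ∈ (ℂ ∙ Ψ)ᗮ
      rw [Submodule.mem_orthogonal_singleton_iff_inner_right]
      exact hΨy
  have hmain := key ⟨y, hyW⟩
  rw [hinner] at hmain
  have hHy : Hlin q N y = Hlin q N x0 := by
    rw [hy, map_sub, map_smul, hHΨ, smul_zero, sub_zero]
  have e1 : inner ℂ y (Hlin q N y) = inner ℂ x0 (Hlin q N x0) := by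
    rw [← Hlin_symm, hHy, Hlin_symm, hHy]
  have e2 : ‖y‖ ^ 2 = ‖x0‖ ^ 2 - ‖inner ℂ Ψ x0‖ ^ 2 / ‖Ψ‖ ^ 2 := by
    have h1 : x0 = y + t • Ψ := by rw [hy]; abel
    have h2 : inner ℂ y (t • Ψ) = (0 : ℂ) := by
      rw [inner_smul_right, ← inner_conj_symm, hΨy]; simp
    have h3 : ‖x0‖ ^ 2 = ‖y‖ ^ 2 + ‖t • Ψ‖ ^ 2 := by
      conv_lhs => rw [h1]
      have := norm_add_sq_eq_norm_sq_add_norm_sq_of_inner_eq_zero y (t • Ψ) h2
      simpa [sq] using this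
    have h4 : ‖t • Ψ‖ ^ 2 = ‖inner ℂ Ψ x0‖ ^ 2 / ‖Ψ‖ ^ 2 := by
      have h5 : ‖(inner ℂ Ψ Ψ : ℂ)‖ = ‖Ψ‖ ^ 2 := by
        rw [inner_self_eq_norm_sq_to_K]
        norm_cast
        simp
      have h6 : ‖Ψ‖ ≠ 0 := norm_ne_zero_iff.2 hΨ0
      rw [norm_smul, ht, norm_div, h5]
      field_simp
    rw [h3, h4]; ring
  rw [e1] at hmain
  have e3 : (inner ℂ x0 (Hlin q N x0)).re = (star ψ ⬝ᵥ (interaction q N).mulVec ψ).re := by
    rw [inner_Hlin]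
  have e4 : (star ψ ⬝ᵥ ψ).re = ‖x0‖ ^ 2 := star_dot_self ψ
  have e5 : (star (laughlin q N) ⬝ᵥ laughlin q N).re = ‖Ψ‖ ^ 2 := star_dot_self _
  have e6 : inner ℂ Ψ x0 = star (laughlin q N) ⬝ᵥ ψ := inner_eq_dot _ _
  rw [e3] at hmain
  have e7 : ‖(⟨y, hyW⟩ : W)‖ = ‖y‖ := rfl
  rw [e7, e2] at hmain
  rw [e4, e5, ← e6]
  exact hmain

/-- The gap above the Laughlin state from the operator inequality `H² ≥ γ H`. -/
theorem gap_of_sq (N : ℕ) (γ : ℝ)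
    (hsq : ∀ ψ : (Fin N → Fin (3 * (N - 1) + 1)) → ℂ, IsAntisymmetric ψ →
      γ * (star ψ ⬝ᵥ (interaction (3 * (N - 1)) N).mulVec ψ).re ≤
        (star ψ ⬝ᵥ (interaction (3 * (N - 1)) N).mulVec
          ((interaction (3 * (N - 1)) N).mulVec ψ)).re)
    (ψ : (Fin N → Fin (3 * (N - 1) + 1)) → ℂ) (hψ : IsAntisymmetric ψ) :
    γ * ((star ψ ⬝ᵥ ψ).re -
            ‖star (laughlin (3 * (N - 1)) N) ⬝ᵥ ψ‖ ^ 2 /
              (star (laughlin (3 * (N - 1)) N) ⬝ᵥ laughlin (3 * (N - 1)) N).re) ≤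
          (star ψ ⬝ᵥ (interaction (3 * (N - 1)) N).mulVec ψ).re :=
  gap_of_sq_aux _ N γ (laughlin_ne_zero N) (fun _ h1 h2 => ker_eq_span h1 h2) hsq ψ hψ

/-- S0531 from S0533. -/
theorem s0531_of_s0533
    (h : ∀ γ : ℝ, 0 < γ → γ < 4616733319001 / 10 ^ 14 →
      ∃ Q₀ : ℕ, ∀ Q : ℕ, Q₀ ≤ Q → ∀ N : ℕ,
        ∀ ψ : (Fin N → Fin (Q + 1)) → ℂ, IsAntisymmetric ψ →
          γ * (star ψ ⬝ᵥ (interaction Q N).mulVec ψ).re ≤
            (star ψ ⬝ᵥ (interaction Q N).mulVec ((interaction Q N).mulVec ψ)).re) :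
    ∃ N₀ : ℕ, ∀ N : ℕ, N₀ ≤ N →
      ∀ ψ : (Fin N → Fin (3 * (N - 1) + 1)) → ℂ, IsAntisymmetric ψ →
        (1 / 25 : ℝ) * ((star ψ ⬝ᵥ ψ).re -
            ‖star (laughlin (3 * (N - 1)) N) ⬝ᵥ ψ‖ ^ 2 /
              (star (laughlin (3 * (N - 1)) N) ⬝ᵥ laughlin (3 * (N - 1)) N).re) ≤
          (star ψ ⬝ᵥ (interaction (3 * (N - 1)) N).mulVec ψ).re := by
  obtain ⟨Q₀, hQ⟩ := h (1 / 25) (by norm_num) (by norm_num)
  refine ⟨Q₀ + 1, fun N hN ψ hψ => ?_⟩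
  exact gap_of_sq N (1 / 25) (fun χ hχ => hQ (3 * (N - 1)) (by omega) N χ hχ) ψ hψ

end Crest.Agent.R340
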