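import Crest.Agent.R340.Quad

set_option autoImplicit false

open Crest.MathPhysics.Laughlin
open scoped BigOperators

namespace Crest.Agent.R340

variable {q N : ℕ}

theorem pairNorm_pos {q b : ℕ} (hb : 1 ≤ b) (hb2 : b < 2 * q) : 0 < pairNorm q b := by
  unfold pairNorm
  have hq : 1 ≤ q := by omega
  have h1 : (0 : ℝ) < b := by exact_mod_cast hb
  have h2 : (0 : ℝ) < 2 * q - b := by
    have : (b : ℝ) < ((2 * q : ℕ) : ℝ) := by exact_mod_cast hb2
    push_cast at this
    linarith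
  have h3 : (0 : ℝ) < (Nat.choose (2 * q) b : ℝ) := by
    exact_mod_cast Nat.choose_pos hb2.le
  have h4 : (0 : ℝ) < 2 * (q : ℝ) - 1 := by
    have : (1 : ℝ) ≤ q := by exact_mod_cast hq
    linarith
  positivity

theorem pairVec_swap (q : ℕ) (p : Fin (2 * q - 1)) (i j : Fin (q + 1)) :
    pairVec q p j i = - pairVec q p i j := by
  unfold pairVec
  rw [add_comm (j : ℕ) (i : ℕ)]
  split_ifs with h
  · rw [mul_comm ((Nat.choose q j : ℕ) : ℝ)]
    ring
  · simp

theorem pairVec_ne_zero {q : ℕ} {p : Fin (2 * q - 1)} {i j : Fin (q + 1)} (hij : i ≠ j)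
    (h : (i : ℕ) + j = p + 1) : pairVec q p i j ≠ 0 := by
  unfold pairVec
  rw [if_pos h]
  have hi := i.isLt
  have hj := j.isLt
  have hp := p.isLt
  have h1 : ((j : ℝ) - (i : ℝ)) ≠ 0 := by
    intro h0
    apply hij
    have : ((j : ℕ) : ℝ) = ((i : ℕ) : ℝ) := by linarith
    exact (Fin.ext (by exact_mod_cast this)).symm
  have h2 : 0 < Real.sqrt ((Nat.choose q i : ℝ) * Nat.choose q j) := by
    apply Real.sqrt_pos.2
    have hi' : (0 : ℝ) < (Nat.choose q i : ℝ) := by
      exact_mod_cast Nat.choose_pos (by omega)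
    have hj' : (0 : ℝ) < (Nat.choose q j : ℝ) := by
      exact_mod_cast Nat.choose_pos (by omega)
    positivity
  have h3 : 0 < Real.sqrt (2 * pairNorm q ((p : ℕ) + 1)) := by
    apply Real.sqrt_pos.2
    have := pairNorm_pos (q := q) (b := (p : ℕ) + 1) (by omega) (by omega)
    positivity
  exact div_ne_zero (mul_ne_zero h1 h2.ne') h3.ne'

/-- Sum of squares of the orbital indices. -/
def sqSum (m : Fin N → Fin (q + 1)) : ℕ := ∑ a, (m a : ℕ) ^ 2

theorem sqSum_upd2 {a b : Fin N} (h : a ≠ b) (m : Fin N → Fin (q + 1)) (i j : Fin (q + 1)) :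
    sqSum (upd2 m a b i j) + ((m a : ℕ) ^ 2 + (m b : ℕ) ^ 2) =
      sqSum m + ((i : ℕ) ^ 2 + (j : ℕ) ^ 2) := by
  have hb : b ∈ (Finset.univ.erase a : Finset (Fin N)) := by simp [h.symm]
  have e1 : ∀ f : Fin N → ℕ, ∑ c, f c = f a + (f b + ∑ c ∈ (Finset.univ.erase a).erase b, f c) := by
    intro f
    rw [← Finset.add_sum_erase Finset.univ f (Finset.mem_univ a),
      ← Finset.add_sum_erase _ f hb]
  unfold sqSum
  rw [e1 (fun c => ((upd2 m a b i j c : Fin (q + 1)) : ℕ) ^ 2), e1 (fun c => ((m c : ℕ)) ^ 2)]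
  rw [upd2_left h, upd2_right]
  have e2 : ∑ c ∈ (Finset.univ.erase a).erase b, ((upd2 m a b i j c : Fin (q + 1)) : ℕ) ^ 2 =
      ∑ c ∈ (Finset.univ.erase a).erase b, ((m c : Fin (q + 1)) : ℕ) ^ 2 := by
    refine Finset.sum_congr rfl fun c hc => ?_
    simp only [Finset.mem_erase, Finset.mem_univ, and_true] at hc
    rw [upd2_of_ne hc.2 hc.1]
  rw [e2]
  ring

theorem upd2_swap_eq {a b : Fin N} (h : a ≠ b) (m : Fin N → Fin (q + 1)) :
    upd2 m a b (m b) (m a) = m ∘ (Equiv.swap a b) := by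
  funext c
  by_cases hb : c = b
  · subst hb; rw [upd2_right]; simp
  · by_cases ha : c = a
    · subst ha; rw [upd2_left h]; simp
    · rw [upd2_of_ne ha hb]; simp [Equiv.swap_apply_of_ne_of_ne ha hb]

theorem anti_swap {ψ : (Fin N → Fin (q + 1)) → ℂ} (hψ : IsAntisymmetric ψ) {a b : Fin N}
    (h : a ≠ b) (m : Fin N → Fin (q + 1)) : ψ (m ∘ (Equiv.swap a b)) = - ψ m := by
  rw [hψ (Equiv.swap a b) m, Equiv.Perm.sign_swap h]
  simp

theorem anti_eq_zero {ψ : (Fin N → Fin (q + 1)) → ℂ} (hψ : IsAntisymmetric ψ) {a b : Fin N}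
    (h : a ≠ b) {m : Fin N → Fin (q + 1)} (hm : m a = m b) : ψ m = 0 := by
  have h1 := anti_swap hψ h m
  have h2 : m ∘ (Equiv.swap a b) = m := by
    rw [← upd2_swap_eq h m, ← hm]
    conv_lhs => rw [show upd2 m a b (m a) (m a) = upd2 m a b (m a) (m b) by rw [hm]]
    exact upd2_self a b m
  rw [h2] at h1
  have : (2 : ℂ) * ψ m = 0 := by linear_combination h1
  simpa using this

theorem arith_gap {A B I J : ℕ} (hs : I + J = A + B) (hAB : A ≠ B) (h1 : B < A + 3)
    (h2 : A < B + 3) (hIJ : I ≠ J) (h4 : ¬ ((I = A ∧ J = B) ∨ (I = B ∧ J = A))) :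
    A ^ 2 + B ^ 2 < I ^ 2 + J ^ 2 := by
  have hd : I + 3 ≤ J ∨ J + 3 ≤ I := by omega
  have hAB' : (A : ℤ) - B ≤ 2 ∧ -2 ≤ (A : ℤ) - B := by omega
  have hs' : (I : ℤ) + J = A + B := by exact_mod_cast hs
  have h5 : ((A : ℤ) - B) ^ 2 ≤ 4 := by nlinarith [hAB'.1, hAB'.2]
  have h6 : (9 : ℤ) ≤ ((I : ℤ) - J) ^ 2 := by
    rcases hd with hd | hd
    · have : (I : ℤ) + 3 ≤ J := by exact_mod_cast hd
      nlinarith
    · have : (J : ℤ) + 3 ≤ I := by exact_mod_cast hd
      nlinarith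
  have h7 : ((A : ℤ) ^ 2 + B ^ 2) < (I : ℤ) ^ 2 + J ^ 2 := by
    have e1 : 2 * ((A : ℤ) ^ 2 + B ^ 2) = (A + B) ^ 2 + (A - B) ^ 2 := by ring
    have e2 : 2 * ((I : ℤ) ^ 2 + J ^ 2) = (I + J) ^ 2 + (I - J) ^ 2 := by ring
    rw [hs'] at e2
    linarith
  exact_mod_cast h7

/-- In a zero mode, a configuration of the support with maximal sum of squares has all its
orbital indices at distance at least three. -/
theorem gap_of_maximal {ψ : (Fin N → Fin (q + 1)) → ℂ} (hψ : IsAntisymmetric ψ)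
    (hamp : ∀ a b : Fin N, a < b → ∀ p m, amp a b p ψ m = 0)
    {m : Fin N → Fin (q + 1)} (hm : ψ m ≠ 0)
    (hmax : ∀ m', ψ m' ≠ 0 → sqSum m' ≤ sqSum m) {a b : Fin N} (hab : a < b) :
    (m a : ℕ) + 3 ≤ m b ∨ (m b : ℕ) + 3 ≤ m a := by
  by_contra hcon
  push Not at hcon
  have hne : a ≠ b := hab.ne
  have hmne : m a ≠ m b := fun h => hm (anti_eq_zero hψ hne h)
  have hmne' : (m a : ℕ) ≠ m b := fun h => hmne (Fin.ext h)
  have ha := (m a).isLt
  have hb := (m b).isLt
  have hp : (m a : ℕ) + m b - 1 < 2 * q - 1 := by omega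
  set p : Fin (2 * q - 1) := ⟨(m a : ℕ) + m b - 1, hp⟩ with hpdef
  have hps : (p : ℕ) + 1 = (m a : ℕ) + m b := by simp [hpdef]; omega
  have hz := hamp a b hab p m
  -- every term vanishes except the two
  have hterm : ∀ i j : Fin (q + 1), ¬ ((i = m a ∧ j = m b) ∨ (i = m b ∧ j = m a)) →
      (pairVec q p i j : ℂ) * ψ (upd2 m a b i j) = 0 := by
    intro i j hij
    by_cases hs : (i : ℕ) + j = p + 1
    · by_cases hij' : i = j
      · subst hij'
        simp [pairVec]
      · have : ψ (upd2 m a b i j) = 0 := by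
          by_contra hne0
          have h1 := hmax _ hne0
          have h2 := sqSum_upd2 hne m i j
          rw [hps] at hs
          have hijn : (i : ℕ) ≠ j := fun h => hij' (Fin.ext h)
          have h3 : ((i : ℕ) ^ 2 + (j : ℕ) ^ 2) ≤ ((m a : ℕ) ^ 2 + (m b : ℕ) ^ 2) := by omega
          -- derive contradiction
          have h4 : ¬ (((i : ℕ) = m a ∧ (j : ℕ) = m b) ∨ ((i : ℕ) = m b ∧ (j : ℕ) = m a)) := by
            intro h
            apply hij
            rcases h with ⟨h, h'⟩ | ⟨h, h'⟩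
            · exact Or.inl ⟨Fin.ext h, Fin.ext h'⟩
            · exact Or.inr ⟨Fin.ext h, Fin.ext h'⟩
          have h5 := arith_gap hs hmne' hcon.1 hcon.2 hijn h4
          omega
        rw [this, mul_zero]
    · simp [pairVec, hs]
  have hsum : amp a b p ψ m =
      (pairVec q p (m a) (m b) : ℂ) * ψ m + (pairVec q p (m b) (m a) : ℂ) * (- ψ m) := by
    unfold amp
    rw [← Finset.sum_product']
    have hsub : ({(m a, m b), (m b, m a)} : Finset (Fin (q + 1) × Fin (q + 1))) ⊆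
        Finset.univ ×ˢ Finset.univ := by
      intro x _; simp
    rw [← Finset.sum_subset hsub]
    · rw [Finset.sum_pair]
      · rw [upd2_self, upd2_swap_eq hne, anti_swap hψ hne]
      · intro h
        exact hmne (congrArg Prod.fst h)
    · intro x _ hx
      apply hterm
      rintro (⟨h1, h2⟩ | ⟨h1, h2⟩)
      · apply hx
        simp [← h1, ← h2]
      · apply hx
        simp [← h1, ← h2]
  rw [hz] at hsum
  rw [pairVec_swap q p (m a) (m b)] at hsum
  have h2 : (2 : ℂ) * ((pairVec q p (m a) (m b) : ℂ) * ψ m) = 0 := by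
    push_cast at hsum
    linear_combination -hsum
  have h3 := pairVec_ne_zero (q := q) (p := p) hmne hps.symm
  simp only [mul_eq_zero, OfNat.ofNat_ne_zero, Complex.ofReal_eq_zero, false_or] at h2
  rcases h2 with h2 | h2
  · exact h3 h2
  · exact hm h2

/-- A non-zero zero mode has an admissible configuration (gaps at least three) in its support. -/
theorem exists_admissible {ψ : (Fin N → Fin (q + 1)) → ℂ} (hψ : IsAntisymmetric ψ)
    (hamp : ∀ a b : Fin N, a < b → ∀ p m, amp a b p ψ m = 0) (h0 : ψ ≠ 0) :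
    ∃ m, ψ m ≠ 0 ∧ ∀ a b : Fin N, a < b → (m a : ℕ) + 3 ≤ m b := by
  classical
  have hne : (Finset.univ.filter fun m => ψ m ≠ 0).Nonempty := by
    obtain ⟨m, hm⟩ := Function.ne_iff.1 h0
    exact ⟨m, by simpa using hm⟩
  obtain ⟨m, hm, hmax⟩ := Finset.exists_max_image _ (fun m => sqSum m) hne
  simp only [Finset.mem_filter, Finset.mem_univ, true_and] at hm hmax
  set π := Tuple.sort m with hπ
  refine ⟨m ∘ π, ?_, ?_⟩
  · rw [hψ π m]
    refine mul_ne_zero ?_ hm
    rcases Int.units_eq_one_or (Equiv.Perm.sign π) with h | h <;> simp [h]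
  · intro a b hab
    have hmono : Monotone (m ∘ π) := Tuple.monotone_sort m
    have h1 : (m (π a) : ℕ) ≤ m (π b) := by exact_mod_cast hmono hab.le
    have hne' : π a ≠ π b := fun h => hab.ne (π.injective h)
    have h2 : (m (π a) : ℕ) + 3 ≤ m (π b) ∨ (m (π b) : ℕ) + 3 ≤ m (π a) := by
      rcases lt_or_gt_of_ne hne' with h | h
      · exact gap_of_maximal hψ hamp hm hmax h
      · exact (gap_of_maximal hψ hamp hm hmax h).symm
    simp only [Function.comp]
    omega

/-- The root configuration 0, 3, 6, …. -/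
def root (N : ℕ) (a : Fin N) : Fin (3 * (N - 1) + 1) := ⟨3 * (a : ℕ), by omega⟩

theorem admissible_ge {m : Fin N → Fin (q + 1)} (h : ∀ a b : Fin N, a < b → (m a : ℕ) + 3 ≤ m b) :
    ∀ a : Fin N, 3 * (a : ℕ) ≤ m a := by
  rintro ⟨a, ha⟩
  induction a with
  | zero => simp
  | succ a ih =>
    have h1 := ih (by omega)
    have h2 := h ⟨a, by omega⟩ ⟨a + 1, ha⟩ (by simp)
    simp only at h1 h2 ⊢
    omega

theorem admissible_eq_root {m : Fin N → Fin (3 * (N - 1) + 1)}
    (h : ∀ a b : Fin N, a < b → (m a : ℕ) + 3 ≤ m b) : m = root N := by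
  have hge := admissible_ge h
  have hle : ∀ k : ℕ, ∀ a : Fin N, (a : ℕ) + 1 + k = N → (m a : ℕ) ≤ 3 * a := by
    intro k
    induction k with
    | zero =>
      intro a ha
      have := (m a).isLt
      omega
    | succ k ih =>
      intro a ha
      have h1 := ih ⟨(a : ℕ) + 1, by omega⟩ (by simp; omega)
      have h2 := h a ⟨(a : ℕ) + 1, by omega⟩ (by simp [Fin.lt_def])
      simp only at h1 h2
      omega
  funext a
  apply Fin.ext
  have h1 := hge a
  have h2 := hle (N - 1 - a) a (by have := a.isLt; omega)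
  simp only [root]
  omega

/-- Uniqueness of the zero mode at filling 1/3. -/
theorem zero_mode_unique {ψ : (Fin N → Fin (3 * (N - 1) + 1)) → ℂ} (hψ : IsAntisymmetric ψ)
    (hamp : ∀ a b : Fin N, a < b → ∀ p m, amp a b p ψ m = 0) (h0 : ψ (root N) = 0) :
    ψ = 0 := by
  by_contra hne
  obtain ⟨m, hm, hadm⟩ := exists_admissible hψ hamp hne
  rw [admissible_eq_root hadm] at hm
  exact hm h0

/-- Above the maximal particle number there is no zero mode. -/
theorem zero_mode_trivial (hN : q + 3 < 3 * N) {ψ : (Fin N → Fin (q + 1)) → ℂ}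
    (hψ : IsAntisymmetric ψ)
    (hamp : ∀ a b : Fin N, a < b → ∀ p m, amp a b p ψ m = 0) : ψ = 0 := by
  by_contra hne
  obtain ⟨m, -, hadm⟩ := exists_admissible hψ hamp hne
  have h1 := admissible_ge hadm ⟨N - 1, by omega⟩
  have h2 := (m ⟨N - 1, by omega⟩).isLt
  simp only at h1 h2
  omega

end Crest.Agent.R340
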