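import Crest.Agent.R340.LaughlinState

set_option autoImplicit false

open Crest.MathPhysics.Laughlin
open scoped BigOperators

namespace Crest.Agent.R340

variable {q N : ℕ}

/-- Weight counting the degree in the spinor of particle `a`. -/
def wt (N : ℕ) (a : Fin N) : Fin N × Fin 2 → ℕ := fun x => if x.1 = a then 1 else 0

theorem dfac_homog (a b c : Fin N) :
    MvPolynomial.IsWeightedHomogeneous (wt N c) (dfac N a b)
      ((if a = c then 1 else 0) + (if b = c then 1 else 0)) := by
  unfold dfac
  apply MvPolynomial.IsWeightedHomogeneous.sub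
  · exact (MvPolynomial.isWeightedHomogeneous_X ℂ (wt N c) (a, (0 : Fin 2))).mul
      (MvPolynomial.isWeightedHomogeneous_X ℂ (wt N c) (b, (1 : Fin 2)))
  · exact (MvPolynomial.isWeightedHomogeneous_X ℂ (wt N c) (a, (1 : Fin 2))).mul
      (MvPolynomial.isWeightedHomogeneous_X ℂ (wt N c) (b, (0 : Fin 2)))

theorem degree_sum (c : Fin N) :
    (∑ a : Fin N, ∑ b : Fin N, if a < b then
      3 * ((if a = c then 1 else 0) + (if b = c then 1 else 0)) else 0) = 3 * (N - 1) := by
  have h1 : ∀ a b : Fin N, (if a < b then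
      3 * ((if a = c then 1 else 0) + (if b = c then 1 else 0)) else 0) =
      (if a = c then (if c < b then 3 else 0) else 0) +
        (if b = c then (if a < c then 3 else 0) else 0) := by
    intro a b
    by_cases hab : a < b
    · by_cases ha : a = c
      · by_cases hb : b = c
        · exfalso; rw [ha, hb] at hab; exact lt_irrefl _ hab
        · subst ha; simp [hab, hb]
      · by_cases hb : b = c
        · subst hb; simp [hab, ha]
        · simp [ha, hb]
    · by_cases ha : a = c
      · subst ha
        by_cases hb : b = a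
        · subst hb; simp
        · simp [hab, hb]
      · by_cases hb : b = c
        · subst hb; simp [hab, ha]
        · simp [ha, hb]
  simp only [h1, Finset.sum_add_distrib]
  have h2 : (∑ a : Fin N, ∑ b : Fin N, if a = c then (if c < b then 3 else 0) else 0) =
      3 * (Finset.Ioi c).card := by
    rw [Finset.sum_eq_single c]
    · simp only [if_true]
      rw [← Finset.sum_filter]
      rw [Finset.sum_const, smul_eq_mul, mul_comm]
      congr 2
      ext b; simp
    · intro a _ ha; simp [ha]
    · intro h; exact absurd (Finset.mem_univ _) h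
  have h3 : (∑ a : Fin N, ∑ b : Fin N, if b = c then (if a < c then 3 else 0) else 0) =
      3 * (Finset.Iio c).card := by
    rw [Finset.sum_comm, Finset.sum_eq_single c]
    · simp only [if_true]
      rw [← Finset.sum_filter]
      rw [Finset.sum_const, smul_eq_mul, mul_comm]
      congr 2
      ext b; simp
    · intro a _ ha; simp [ha]
    · intro h; exact absurd (Finset.mem_univ _) h
  rw [h2, h3, Fin.card_Ioi, Fin.card_Iio]
  have := c.isLt
  omega

theorem lpoly_homog (c : Fin N) :
    MvPolynomial.IsWeightedHomogeneous (wt N c) (lpoly N) (3 * (N - 1)) := by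
  rw [← degree_sum c]
  unfold lpoly
  apply MvPolynomial.IsWeightedHomogeneous.prod
  intro a _
  apply MvPolynomial.IsWeightedHomogeneous.prod
  intro b _
  by_cases hab : a < b
  · rw [if_pos hab, if_pos hab, ← smul_eq_mul]
    exact (dfac_homog a b c).pow 3
  · rw [if_neg hab, if_neg hab]
    exact MvPolynomial.isWeightedHomogeneous_one ℂ (wt N c)

theorem dfac_ne_zero {a b : Fin N} (h : a ≠ b) : dfac N a b ≠ 0 := by
  intro h0
  have h1 := congrArg (MvPolynomial.coeff (Finsupp.single ((a, 0) : Fin N × Fin 2) 1 +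
    Finsupp.single ((b, 1) : Fin N × Fin 2) 1)) h0
  unfold dfac at h1
  have e1 : (MvPolynomial.X (a, (0 : Fin 2)) * MvPolynomial.X (b, (1 : Fin 2)) :
      MvPolynomial (Fin N × Fin 2) ℂ) = MvPolynomial.monomial
        (Finsupp.single ((a, 0) : Fin N × Fin 2) 1 + Finsupp.single ((b, 1) : Fin N × Fin 2) 1) 1 := by
    rw [MvPolynomial.X, MvPolynomial.X, MvPolynomial.monomial_mul, one_mul]
  have e2 : (MvPolynomial.X (a, (1 : Fin 2)) * MvPolynomial.X (b, (0 : Fin 2)) :
      MvPolynomial (Fin N × Fin 2) ℂ) = MvPolynomial.monomial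
        (Finsupp.single ((a, 1) : Fin N × Fin 2) 1 + Finsupp.single ((b, 0) : Fin N × Fin 2) 1) 1 := by
    rw [MvPolynomial.X, MvPolynomial.X, MvPolynomial.monomial_mul, one_mul]
  rw [e1, e2, MvPolynomial.coeff_sub, MvPolynomial.coeff_monomial, MvPolynomial.coeff_monomial,
    if_pos rfl, if_neg] at h1
  · simp at h1
  · intro h2
    have h3 := DFunLike.congr_fun h2 (a, 0)
    simp [Finsupp.single_apply, h, h.symm] at h3

theorem lpoly_ne_zero (N : ℕ) : lpoly N ≠ 0 := by
  unfold lpoly
  rw [Finset.prod_ne_zero_iff]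
  intro a _
  rw [Finset.prod_ne_zero_iff]
  intro b _
  split_ifs with hab
  · exact pow_ne_zero _ (dfac_ne_zero hab.ne)
  · exact one_ne_zero

theorem weight_wt (c : Fin N) (d : (Fin N × Fin 2) →₀ ℕ) :
    Finsupp.weight (wt N c) d = d (c, 0) + d (c, 1) := by
  rw [Finsupp.weight_apply, Finsupp.sum_fintype _ _ (by simp)]
  rw [Fintype.sum_prod_type]
  simp only [Fin.sum_univ_two, wt, smul_eq_mul, mul_ite, mul_one, mul_zero]
  rw [Finset.sum_eq_single c]
  · simp
  · intro b _ hb; simp [hb]
  · intro h; exact absurd (Finset.mem_univ _) h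

theorem den_ne_zero (m : Fin N → Fin (q + 1)) :
    ((∏ a : Fin N, Real.sqrt (Nat.choose q (m a)) : ℝ) : ℂ) ≠ 0 := by
  rw [Ne, Complex.ofReal_eq_zero, Finset.prod_eq_zero_iff]
  push Not
  intro a _
  have h1 : (0 : ℝ) < (Nat.choose q (m a) : ℝ) := by
    exact_mod_cast Nat.choose_pos (by have := (m a).isLt; omega)
  exact (Real.sqrt_pos.2 h1).ne'

theorem laughlin_ne_zero (N : ℕ) : laughlin (3 * (N - 1)) N ≠ 0 := by
  obtain ⟨d, hd⟩ := MvPolynomial.ne_zero_iff.1 (lpoly_ne_zero N)
  have hw : ∀ c : Fin N, d (c, 0) + d (c, 1) = 3 * (N - 1) := by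
    intro c
    rw [← weight_wt]
    exact lpoly_homog c hd
  let m : Fin N → Fin (3 * (N - 1) + 1) := fun c => ⟨d (c, 1), by have := hw c; omega⟩
  have hdm : d = expo (3 * (N - 1)) m := by
    apply expo_ext
    · intro c
      have := hw c
      simp only [m]
      omega
    · intro c
      rfl
  apply Function.ne_iff.2
  refine ⟨m, ?_⟩
  rw [laughlin_eq, ← hdm]
  simp only [Pi.zero_apply]
  exact div_ne_zero hd (den_ne_zero m)

/-- Balanced exponent vectors relative to the background `m` and the pair `a, b`. -/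
def Good (q s : ℕ) (m : Fin N → Fin (q + 1)) (a b : Fin N) (e : (Fin N × Fin 2) →₀ ℕ) : Prop :=
  (∀ c, c ≠ a → c ≠ b → e (c, 0) = q - m c ∧ e (c, 1) = m c) ∧
    e (a, 0) + e (a, 1) = q ∧ e (b, 0) + e (b, 1) = q ∧ e (a, 1) + e (b, 1) = s

/-- The linear functional attached to a pair vector. -/
noncomputable def lam (q s : ℕ) (m : Fin N → Fin (q + 1)) (a b : Fin N)
    (P : MvPolynomial (Fin N × Fin 2) ℂ) : ℂ :=
  ∑ i : Fin (q + 1), ∑ j : Fin (q + 1), if (i : ℕ) + j = s then
    (((j : ℕ) : ℂ) - ((i : ℕ) : ℂ)) * MvPolynomial.coeff (expo q (upd2 m a b i j)) P else 0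

theorem lam_add (s : ℕ) (m : Fin N → Fin (q + 1)) (a b : Fin N)
    (P Q : MvPolynomial (Fin N × Fin 2) ℂ) :
    lam q s m a b (P + Q) = lam q s m a b P + lam q s m a b Q := by
  unfold lam
  rw [← Finset.sum_add_distrib]
  refine Finset.sum_congr rfl fun i _ => ?_
  rw [← Finset.sum_add_distrib]
  refine Finset.sum_congr rfl fun j _ => ?_
  split_ifs
  · rw [MvPolynomial.coeff_add]; ring
  · simp

theorem lam_smul (s : ℕ) (m : Fin N → Fin (q + 1)) (a b : Fin N) (k : ℂ)
    (P : MvPolynomial (Fin N × Fin 2) ℂ) :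
    lam q s m a b (MvPolynomial.C k * P) = k * lam q s m a b P := by
  unfold lam
  rw [Finset.mul_sum]
  refine Finset.sum_congr rfl fun i _ => ?_
  rw [Finset.mul_sum]
  refine Finset.sum_congr rfl fun j _ => ?_
  split_ifs
  · rw [MvPolynomial.coeff_C_mul]; ring
  · simp

open Classical in
theorem lam_monomial (s : ℕ) (m : Fin N → Fin (q + 1)) {a b : Fin N} (hab : a ≠ b)
    (e : (Fin N × Fin 2) →₀ ℕ) (k : ℂ) :
    lam q s m a b (MvPolynomial.monomial e k) =
      if Good q s m a b e then (((e (b, 1) : ℕ) : ℂ) - ((e (a, 1) : ℕ) : ℂ)) * k else 0 := by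
  unfold lam
  split_ifs with hg
  · obtain ⟨h1, h2, h3, h4⟩ := hg
    have hia : e (a, 1) < q + 1 := by omega
    have hjb : e (b, 1) < q + 1 := by omega
    rw [Finset.sum_eq_single ⟨e (a, 1), hia⟩]
    · rw [Finset.sum_eq_single ⟨e (b, 1), hjb⟩]
      · rw [if_pos (by simpa using h4), MvPolynomial.coeff_monomial, if_pos]
        apply expo_ext
        · intro c
          by_cases hb : c = b
          · subst hb; rw [upd2_right]; simp only; omega
          · by_cases ha : c = a
            · subst ha; rw [upd2_left hab]; simp only; omega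
            · rw [upd2_of_ne ha hb]; exact (h1 c ha hb).1
        · intro c
          by_cases hb : c = b
          · subst hb; rw [upd2_right]
          · by_cases ha : c = a
            · subst ha; rw [upd2_left hab]
            · rw [upd2_of_ne ha hb]; exact (h1 c ha hb).2
      · intro j _ hj
        split_ifs with hs
        · exfalso
          apply hj
          apply Fin.ext
          simp only at hs ⊢
          omega
        · rfl
      · intro h; exact absurd (Finset.mem_univ _) h
    · intro i _ hi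
      refine Finset.sum_eq_zero fun j _ => ?_
      split_ifs with hs
      · rw [MvPolynomial.coeff_monomial, if_neg, mul_zero]
        intro he
        apply hi
        apply Fin.ext
        have h5 := DFunLike.congr_fun he (a, 1)
        rw [expo_one, upd2_left hab] at h5
        simp only [h5]
      · rfl
    · intro h; exact absurd (Finset.mem_univ _) h
  · refine Finset.sum_eq_zero fun i _ => Finset.sum_eq_zero fun j _ => ?_
    split_ifs with hs
    · rw [MvPolynomial.coeff_monomial, if_neg, mul_zero]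
      intro he
      apply hg
      have hi := i.isLt
      have hj := j.isLt
      refine ⟨?_, ?_, ?_, ?_⟩
      · intro c ha hb
        rw [he, expo_zero, expo_one, upd2_of_ne ha hb]
        exact ⟨rfl, rfl⟩
      · rw [he, expo_zero, expo_one, upd2_left hab]; omega
      · rw [he, expo_zero, expo_one, upd2_right]; omega
      · rw [he, expo_one, expo_one, upd2_left hab, upd2_right]; exact hs
    · rfl

/-- The functional vanishes on multiples of the cube of the elementary factor. -/
theorem lam_cube (s : ℕ) (m : Fin N → Fin (q + 1)) {a b : Fin N} (hab : a ≠ b)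
    (P : MvPolynomial (Fin N × Fin 2) ℂ) :
    lam q s m a b (dfac N a b ^ 3 * P) = 0 := by
  classical
  induction P using MvPolynomial.induction_on' with
  | add P Q hP hQ => rw [mul_add, lam_add, hP, hQ, add_zero]
  | monomial d k =>
    set α : (Fin N × Fin 2) →₀ ℕ := Finsupp.single ((a, 0) : Fin N × Fin 2) 1 +
      Finsupp.single ((b, 1) : Fin N × Fin 2) 1 with hα
    set β : (Fin N × Fin 2) →₀ ℕ := Finsupp.single ((a, 1) : Fin N × Fin 2) 1 +
      Finsupp.single ((b, 0) : Fin N × Fin 2) 1 with hβ
    have e1 : (MvPolynomial.X (a, (0 : Fin 2)) * MvPolynomial.X (b, (1 : Fin 2)) :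
        MvPolynomial (Fin N × Fin 2) ℂ) = MvPolynomial.monomial α 1 := by
      rw [MvPolynomial.X, MvPolynomial.X, MvPolynomial.monomial_mul, one_mul]
    have e2 : (MvPolynomial.X (a, (1 : Fin 2)) * MvPolynomial.X (b, (0 : Fin 2)) :
        MvPolynomial (Fin N × Fin 2) ℂ) = MvPolynomial.monomial β 1 := by
      rw [MvPolynomial.X, MvPolynomial.X, MvPolynomial.monomial_mul, one_mul]
    have e3 : dfac N a b ^ 3 * MvPolynomial.monomial d k =
        MvPolynomial.monomial (α + α + α + d) k +
        (MvPolynomial.C (-3) * MvPolynomial.monomial (α + α + β + d) k +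
        (MvPolynomial.C 3 * MvPolynomial.monomial (α + β + β + d) k +
        MvPolynomial.C (-1) * MvPolynomial.monomial (β + β + β + d) k)) := by
      unfold dfac
      rw [e1, e2]
      have m1 : MvPolynomial.monomial (α + α + α + d) k =
          MvPolynomial.monomial α (1 : ℂ) * MvPolynomial.monomial α 1 *
            MvPolynomial.monomial α 1 * MvPolynomial.monomial d k := by
        simp [MvPolynomial.monomial_mul]
      have m2 : MvPolynomial.monomial (α + α + β + d) k =
          MvPolynomial.monomial α (1 : ℂ) * MvPolynomial.monomial α 1 *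
            MvPolynomial.monomial β 1 * MvPolynomial.monomial d k := by
        simp [MvPolynomial.monomial_mul]
      have m3 : MvPolynomial.monomial (α + β + β + d) k =
          MvPolynomial.monomial α (1 : ℂ) * MvPolynomial.monomial β 1 *
            MvPolynomial.monomial β 1 * MvPolynomial.monomial d k := by
        simp [MvPolynomial.monomial_mul]
      have m4 : MvPolynomial.monomial (β + β + β + d) k =
          MvPolynomial.monomial β (1 : ℂ) * MvPolynomial.monomial β 1 *
            MvPolynomial.monomial β 1 * MvPolynomial.monomial d k := by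
        simp [MvPolynomial.monomial_mul]
      rw [m1, m2, m3, m4]
      have c3' : (MvPolynomial.C 3 : MvPolynomial (Fin N × Fin 2) ℂ) = 3 := map_ofNat _ 3
      have c3 : (MvPolynomial.C (-3) : MvPolynomial (Fin N × Fin 2) ℂ) = -3 := by
        rw [map_neg, c3']
      have c1 : (MvPolynomial.C (-1) : MvPolynomial (Fin N × Fin 2) ℂ) = -1 := by
        rw [map_neg, map_one]
      rw [c3, c3', c1]
      ring
    rw [e3, lam_add, lam_add, lam_add, lam_smul, lam_smul, lam_smul,
      lam_monomial s m hab, lam_monomial s m hab, lam_monomial s m hab, lam_monomial s m hab]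
    have ha' : a ≠ b := hab
    have hb' : b ≠ a := hab.symm
    have va0 : α (a, 0) = 1 := by simp [hα, ha', hb']
    have va1 : α (a, 1) = 0 := by simp [hα, ha', hb']
    have vb0 : α (b, 0) = 0 := by simp [hα, ha', hb']
    have vb1 : α (b, 1) = 1 := by simp [hα, ha', hb']
    have wa0 : β (a, 0) = 0 := by simp [hβ, ha', hb']
    have wa1 : β (a, 1) = 1 := by simp [hβ, ha', hb']
    have wb0 : β (b, 0) = 1 := by simp [hβ, ha', hb']
    have wb1 : β (b, 1) = 0 := by simp [hβ, ha', hb']
    have vc : ∀ c, c ≠ a → c ≠ b → α (c, 0) = 0 ∧ α (c, 1) = 0 := by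
      intro c h1 h2
      simp [hα, Finsupp.single_apply, h1.symm, h2.symm]
    have wc : ∀ c, c ≠ a → c ≠ b → β (c, 0) = 0 ∧ β (c, 1) = 0 := by
      intro c h1 h2
      simp [hβ, Finsupp.single_apply, h1.symm, h2.symm]
    have hgood : ∀ x y : (Fin N × Fin 2) →₀ ℕ,
        (x (a, 0) + x (a, 1) = y (a, 0) + y (a, 1)) → (x (b, 0) + x (b, 1) = y (b, 0) + y (b, 1)) →
        (x (a, 1) + x (b, 1) = y (a, 1) + y (b, 1)) →
        (∀ c, c ≠ a → c ≠ b → x (c, 0) = y (c, 0) ∧ x (c, 1) = y (c, 1)) →
        (Good q s m a b x ↔ Good q s m a b y) := by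
      intro x y h1 h2 h3 h4
      unfold Good
      rw [h1, h2, h3]
      constructor
      · rintro ⟨g1, g2⟩
        refine ⟨fun c hc hc' => ?_, g2⟩
        rw [← (h4 c hc hc').1, ← (h4 c hc hc').2]
        exact g1 c hc hc'
      · rintro ⟨g1, g2⟩
        refine ⟨fun c hc hc' => ?_, g2⟩
        rw [(h4 c hc hc').1, (h4 c hc hc').2]
        exact g1 c hc hc'
    have g1 : Good q s m a b (α + α + β + d) ↔ Good q s m a b (α + α + α + d) := by
      refine hgood _ _ ?_ ?_ ?_ ?_
      · simp only [Finsupp.add_apply, va0, va1, vb0, vb1, wa0, wa1, wb0, wb1]; omega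
      · simp only [Finsupp.add_apply, va0, va1, vb0, vb1, wa0, wa1, wb0, wb1]; omega
      · simp only [Finsupp.add_apply, va0, va1, vb0, vb1, wa0, wa1, wb0, wb1]; omega
      · intro c h1 h2
        simp [(vc c h1 h2).1, (vc c h1 h2).2, (wc c h1 h2).1, (wc c h1 h2).2]
    have g2 : Good q s m a b (α + β + β + d) ↔ Good q s m a b (α + α + α + d) := by
      refine hgood _ _ ?_ ?_ ?_ ?_
      · simp only [Finsupp.add_apply, va0, va1, vb0, vb1, wa0, wa1, wb0, wb1]; omega
      · simp only [Finsupp.add_apply, va0, va1, vb0, vb1, wa0, wa1, wb0, wb1]; omega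
      · simp only [Finsupp.add_apply, va0, va1, vb0, vb1, wa0, wa1, wb0, wb1]; omega
      · intro c h1 h2
        simp [(vc c h1 h2).1, (vc c h1 h2).2, (wc c h1 h2).1, (wc c h1 h2).2]
    have g3 : Good q s m a b (β + β + β + d) ↔ Good q s m a b (α + α + α + d) := by
      refine hgood _ _ ?_ ?_ ?_ ?_
      · simp only [Finsupp.add_apply, va0, va1, vb0, vb1, wa0, wa1, wb0, wb1]; omega
      · simp only [Finsupp.add_apply, va0, va1, vb0, vb1, wa0, wa1, wb0, wb1]; omega
      · simp only [Finsupp.add_apply, va0, va1, vb0, vb1, wa0, wa1, wb0, wb1]; omega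
      · intro c h1 h2
        simp [(vc c h1 h2).1, (vc c h1 h2).2, (wc c h1 h2).1, (wc c h1 h2).2]
    simp only [g1, g2, g3]
    split_ifs with hg
    · simp only [Finsupp.add_apply, va1, vb1, wa1, wb1]
      push_cast
      ring
    · ring

theorem dvd_lpoly {a b : Fin N} (hab : a < b) : dfac N a b ^ 3 ∣ lpoly N := by
  unfold lpoly
  refine dvd_trans ?_ (Finset.dvd_prod_of_mem _ (Finset.mem_univ a))
  refine dvd_trans ?_ (Finset.dvd_prod_of_mem _ (Finset.mem_univ b))
  rw [if_pos hab]

theorem amp_laughlin (q N : ℕ) {a b : Fin N} (hab : a < b) (p : Fin (2 * q - 1))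
    (m : Fin N → Fin (q + 1)) : amp a b p (laughlin q N) m = 0 := by
  obtain ⟨P, hP⟩ := dvd_lpoly (N := N) hab
  have hlam := lam_cube (q := q) (p + 1) m hab.ne P
  rw [← hP] at hlam
  have hne := hab.ne
  have hb : b ∈ (Finset.univ.erase a : Finset (Fin N)) := by simp [hne.symm]
  set R : ℝ := ∏ c ∈ (Finset.univ.erase a).erase b, Real.sqrt (Nat.choose q (m c)) with hR
  have hden : ∀ i j : Fin (q + 1), (∏ c : Fin N, Real.sqrt (Nat.choose q (upd2 m a b i j c)) : ℝ) =
      Real.sqrt (Nat.choose q i) * (Real.sqrt (Nat.choose q j) * R) := by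
    intro i j
    rw [← Finset.mul_prod_erase Finset.univ _ (Finset.mem_univ a),
      ← Finset.mul_prod_erase _ _ hb, upd2_left hne, upd2_right]
    congr 2
    refine Finset.prod_congr rfl fun c hc => ?_
    simp only [Finset.mem_erase, Finset.mem_univ, and_true] at hc
    rw [upd2_of_ne hc.2 hc.1]
  have hRpos : R ≠ 0 := by
    rw [hR, Finset.prod_ne_zero_iff]
    intro c _
    have h1 : (0 : ℝ) < (Nat.choose q (m c) : ℝ) := by
      exact_mod_cast Nat.choose_pos (by have := (m c).isLt; omega)
    exact (Real.sqrt_pos.2 h1).ne'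
  have hterm : ∀ i j : Fin (q + 1), (pairVec q p i j : ℂ) * laughlin q N (upd2 m a b i j) =
      (((Real.sqrt (2 * pairNorm q ((p : ℕ) + 1)) * R)⁻¹ : ℝ) : ℂ) *
      (if (i : ℕ) + j = p + 1 then
        (((j : ℕ) : ℂ) - ((i : ℕ) : ℂ)) *
          MvPolynomial.coeff (expo q (upd2 m a b i j)) (lpoly N) else 0) := by
    intro i j
    rw [laughlin_eq, hden]
    unfold pairVec
    split_ifs with hs
    · have hi : (0 : ℝ) < (Nat.choose q i : ℝ) := by
        exact_mod_cast Nat.choose_pos (by have := i.isLt; omega)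
      have hj : (0 : ℝ) < (Nat.choose q j : ℝ) := by
        exact_mod_cast Nat.choose_pos (by have := j.isLt; omega)
      rw [Real.sqrt_mul hi.le]
      have hi' := (Real.sqrt_pos.2 hi).ne'
      have hj' := (Real.sqrt_pos.2 hj).ne'
      have hiC : ((Real.sqrt (Nat.choose q i) : ℝ) : ℂ) ≠ 0 := by exact_mod_cast hi'
      have hjC : ((Real.sqrt (Nat.choose q j) : ℝ) : ℂ) ≠ 0 := by exact_mod_cast hj'
      have hRC : ((R : ℝ) : ℂ) ≠ 0 := by exact_mod_cast hRpos
      push_cast
      by_cases hZ : ((Real.sqrt (2 * pairNorm q ((p : ℕ) + 1)) : ℝ) : ℂ) = 0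
      · have hZ' : Real.sqrt (2 * pairNorm q ((p : ℕ) + 1)) = 0 := by exact_mod_cast hZ
        simp [hZ']
      · field_simp
    · simp
  unfold amp
  simp only [hterm, ← Finset.mul_sum]
  unfold lam at hlam
  rw [hlam, mul_zero]

/-- The interaction annihilates the Laughlin state. -/
theorem interaction_laughlin (q N : ℕ) : (interaction q N).mulVec (laughlin q N) = 0 :=
  interaction_mulVec_eq_zero fun _ _ hab p m => amp_laughlin q N hab p m

theorem laughlin_root_ne_zero (N : ℕ) : laughlin (3 * (N - 1)) N (root N) ≠ 0 := by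
  intro h
  exact laughlin_ne_zero N (zero_mode_unique (laughlin_antisymm _ _)
    (fun _ _ hab p m => amp_laughlin _ N hab p m) h)

/-- The kernel of the interaction on antisymmetric states at filling 1/3 is spanned by the
Laughlin state. -/
theorem ker_eq_span {N : ℕ} {ψ : (Fin N → Fin (3 * (N - 1) + 1)) → ℂ} (hψ : IsAntisymmetric ψ)
    (h0 : (star ψ ⬝ᵥ (interaction (3 * (N - 1)) N).mulVec ψ).re = 0) :
    ∃ t : ℂ, ψ = t • laughlin (3 * (N - 1)) N := by
  set L := laughlin (3 * (N - 1)) N with hL
  set t : ℂ := ψ (root N) / L (root N) with ht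
  refine ⟨t, ?_⟩
  have hanti : IsAntisymmetric (ψ - t • L) := by
    intro π m
    have h1 := hψ π m
    have h2 := laughlin_antisymm (3 * (N - 1)) N π m
    simp only [Pi.sub_apply, Pi.smul_apply, smul_eq_mul]
    rw [h1, hL, h2]
    ring
  have hamp : ∀ a b : Fin N, a < b → ∀ p m, amp a b p (ψ - t • L) m = 0 := by
    intro a b hab p m
    have h1 : amp a b p (ψ - t • L) m = amp a b p ψ m - t * amp a b p L m := by
      unfold amp
      rw [Finset.mul_sum, ← Finset.sum_sub_distrib]
      refine Finset.sum_congr rfl fun i _ => ?_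
      rw [Finset.mul_sum, ← Finset.sum_sub_distrib]
      refine Finset.sum_congr rfl fun j _ => ?_
      simp only [Pi.sub_apply, Pi.smul_apply, smul_eq_mul]
      ring
    rw [h1, amp_eq_zero_of_dot_eq_zero h0 hab, hL, amp_laughlin _ N hab]
    ring
  have hroot : (ψ - t • L) (root N) = 0 := by
    simp only [Pi.sub_apply, Pi.smul_apply, smul_eq_mul, ht]
    rw [div_mul_cancel₀ _ (laughlin_root_ne_zero N), sub_self]
  have := zero_mode_unique hanti hamp hroot
  exact sub_eq_zero.1 this

end Crest.Agent.R340
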