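import Crest.Agent.R340.Kernel

set_option autoImplicit false

open Crest.MathPhysics.Laughlin
open scoped BigOperators

namespace Crest.Agent.R340

variable {q N : ℕ}

/-- The exponent vector of the configuration `m`. -/
noncomputable def expo (q : ℕ) {N : ℕ} (m : Fin N → Fin (q + 1)) : (Fin N × Fin 2) →₀ ℕ :=
  ∑ a : Fin N, (Finsupp.single (a, (0 : Fin 2)) (q - (m a : ℕ)) +
        Finsupp.single (a, (1 : Fin 2)) (m a : ℕ))

/-- The elementary factor. -/
noncomputable def dfac (N : ℕ) (a b : Fin N) : MvPolynomial (Fin N × Fin 2) ℂ :=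
  MvPolynomial.X (a, (0 : Fin 2)) * MvPolynomial.X (b, (1 : Fin 2)) -
            MvPolynomial.X (a, (1 : Fin 2)) * MvPolynomial.X (b, (0 : Fin 2))

/-- The Laughlin polynomial. -/
noncomputable def lpoly (N : ℕ) : MvPolynomial (Fin N × Fin 2) ℂ :=
  ∏ a : Fin N, ∏ b : Fin N, if a < b then (dfac N a b) ^ 3 else 1

theorem laughlin_eq (q N : ℕ) (m : Fin N → Fin (q + 1)) :
    laughlin q N m = MvPolynomial.coeff (expo q m) (lpoly N) /
      ((∏ a : Fin N, Real.sqrt (Nat.choose q (m a)) : ℝ) : ℂ) := rfl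

theorem expo_zero (m : Fin N → Fin (q + 1)) (c : Fin N) : expo q m (c, 0) = q - m c := by
  simp only [expo, Finsupp.coe_finsetSum, Finset.sum_apply, Finsupp.add_apply,
    Finsupp.single_apply, Prod.mk.injEq]
  simp

theorem expo_one (m : Fin N → Fin (q + 1)) (c : Fin N) : expo q m (c, 1) = m c := by
  simp only [expo, Finsupp.coe_finsetSum, Finset.sum_apply, Finsupp.add_apply,
    Finsupp.single_apply, Prod.mk.injEq]
  simp

theorem expo_ext {m : Fin N → Fin (q + 1)} {e : (Fin N × Fin 2) →₀ ℕ}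
    (h0 : ∀ c, e (c, 0) = q - m c) (h1 : ∀ c, e (c, 1) = m c) : e = expo q m := by
  ext ⟨c, t⟩
  fin_cases t
  · simp only [Fin.zero_eta]; rw [h0, expo_zero]
  · simp only [Fin.mk_one]; rw [h1, expo_one]

theorem lpoly_eq_det (N : ℕ) : lpoly N =
    (Matrix.projVandermonde (fun a : Fin N => (MvPolynomial.X (a, (1 : Fin 2)) :
      MvPolynomial (Fin N × Fin 2) ℂ)) (fun a => MvPolynomial.X (a, (0 : Fin 2)))).det ^ 3 := by
  rw [Matrix.det_projVandermonde, lpoly, ← Finset.prod_pow]
  refine Finset.prod_congr rfl fun a _ => ?_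
  rw [← Finset.prod_pow, Finset.prod_ite, Finset.prod_const_one, mul_one]
  have : Finset.univ.filter (fun b => a < b) = Finset.Ioi a := by
    ext b; simp
  rw [this]
  refine Finset.prod_congr rfl fun b _ => ?_
  rw [dfac]
  ring

theorem rename_lpoly (N : ℕ) (σ : Equiv.Perm (Fin N)) :
    MvPolynomial.rename (fun x : Fin N × Fin 2 => (σ x.1, x.2)) (lpoly N) =
      ((Equiv.Perm.sign σ : ℤ) : MvPolynomial (Fin N × Fin 2) ℂ) * lpoly N := by
  rw [lpoly_eq_det, map_pow, AlgHom.map_det]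
  have h1 : (MvPolynomial.rename (R := ℂ) (fun x : Fin N × Fin 2 => (σ x.1, x.2))).mapMatrix
      (Matrix.projVandermonde (fun a : Fin N => (MvPolynomial.X (a, (1 : Fin 2)) :
      MvPolynomial (Fin N × Fin 2) ℂ)) (fun a => MvPolynomial.X (a, (0 : Fin 2)))) =
      (Matrix.projVandermonde (fun a : Fin N => (MvPolynomial.X (a, (1 : Fin 2)) :
      MvPolynomial (Fin N × Fin 2) ℂ)) (fun a => MvPolynomial.X (a, (0 : Fin 2)))).submatrix σ id := by
    ext1 i j
    simp [Matrix.projVandermonde_apply]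
  rw [h1, Matrix.det_permute]
  rcases Int.units_eq_one_or (Equiv.Perm.sign σ) with h | h
  · simp [h]
  · simp [h]; ring

theorem laughlin_antisymm (q N : ℕ) : IsAntisymmetric (laughlin q N) := by
  intro π m
  rw [laughlin_eq, laughlin_eq]
  have hden : (∏ a : Fin N, Real.sqrt (Nat.choose q ((m ∘ π) a)) : ℝ) =
      ∏ a : Fin N, Real.sqrt (Nat.choose q (m a)) := by
    exact Equiv.prod_comp π (fun a => Real.sqrt (Nat.choose q (m a)))
  rw [hden]
  set f : Fin N × Fin 2 → Fin N × Fin 2 := fun x => (π.symm x.1, x.2) with hf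
  have hinj : Function.Injective f := by
    rintro ⟨a, s⟩ ⟨b, t⟩ h
    simp only [hf, Prod.mk.injEq, EmbeddingLike.apply_eq_iff_eq] at h
    exact Prod.ext h.1 h.2
  have hexpo : expo q (m ∘ π) = Finsupp.mapDomain f (expo q m) := by
    symm
    apply expo_ext
    · intro c
      have : ((c, (0 : Fin 2)) : Fin N × Fin 2) = f (π c, 0) := by simp [hf]
      rw [this, Finsupp.mapDomain_apply hinj, expo_zero]
      rfl
    · intro c
      have : ((c, (1 : Fin 2)) : Fin N × Fin 2) = f (π c, 1) := by simp [hf]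
      rw [this, Finsupp.mapDomain_apply hinj, expo_one]
      rfl
  rw [hexpo]
  have h1 : lpoly N = ((Equiv.Perm.sign π : ℤ) : MvPolynomial (Fin N × Fin 2) ℂ) *
      MvPolynomial.rename f (lpoly N) := by
    have h2 := rename_lpoly N π.symm
    have h3 : f = fun x : Fin N × Fin 2 => (π.symm x.1, x.2) := rfl
    rw [h3, h2, ← mul_assoc]
    have h4 : Equiv.Perm.sign π.symm = Equiv.Perm.sign π := Equiv.Perm.sign_symm π
    rw [h4]
    rcases Int.units_eq_one_or (Equiv.Perm.sign π) with h | h <;> simp [h]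
  have h5 : MvPolynomial.coeff (Finsupp.mapDomain f (expo q m)) (lpoly N) =
      ((Equiv.Perm.sign π : ℤ) : ℂ) * MvPolynomial.coeff (expo q m) (lpoly N) := by
    conv_lhs => rw [h1]
    have h6 : ((Equiv.Perm.sign π : ℤ) : MvPolynomial (Fin N × Fin 2) ℂ) =
        MvPolynomial.C ((Equiv.Perm.sign π : ℤ) : ℂ) := by
      simp
    rw [h6, MvPolynomial.coeff_C_mul, MvPolynomial.coeff_rename_mapDomain f hinj]
  rw [h5]
  ring

end Crest.Agent.R340
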