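import Crest.Prelude.Def_Laughlin

set_option autoImplicit false

open Crest.MathPhysics.Laughlin
open scoped BigOperators

namespace Crest.Agent.R340

variable {q N : ℕ}

/-- Replace the orbitals at positions `a` and `b` by `i` and `j`. -/
def upd2 (m : Fin N → Fin (q + 1)) (a b : Fin N) (i j : Fin (q + 1)) : Fin N → Fin (q + 1) :=
  Function.update (Function.update m a i) b j

theorem upd2_left {a b : Fin N} (h : a ≠ b) (m : Fin N → Fin (q + 1)) (i j : Fin (q + 1)) :
    upd2 m a b i j a = i := by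
  simp [upd2, Function.update_of_ne h]

theorem upd2_right (a b : Fin N) (m : Fin N → Fin (q + 1)) (i j : Fin (q + 1)) :
    upd2 m a b i j b = j := by
  simp [upd2]

theorem upd2_of_ne {a b c : Fin N} (ha : c ≠ a) (hb : c ≠ b) (m : Fin N → Fin (q + 1))
    (i j : Fin (q + 1)) : upd2 m a b i j c = m c := by
  simp [upd2, Function.update_of_ne ha, Function.update_of_ne hb]

theorem upd2_self (a b : Fin N) (m : Fin N → Fin (q + 1)) :
    upd2 m a b (m a) (m b) = m := by
  funext c
  by_cases hb : c = b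
  · subst hb; simp [upd2]
  · by_cases ha : c = a
    · subst ha; simp [upd2, Function.update_of_ne hb]
    · rw [upd2_of_ne ha hb]

theorem upd2_upd2 {a b : Fin N} (h : a ≠ b) (m : Fin N → Fin (q + 1))
    (i j i' j' : Fin (q + 1)) : upd2 (upd2 m a b i j) a b i' j' = upd2 m a b i' j' := by
  funext c
  by_cases hb : c = b
  · subst hb; rw [upd2_right, upd2_right]
  · by_cases ha : c = a
    · subst ha; rw [upd2_left h, upd2_left h]
    · rw [upd2_of_ne ha hb, upd2_of_ne ha hb, upd2_of_ne ha hb]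

/-- The amplitude of the pair vector `w_p` at positions `a, b`. -/
noncomputable def amp (a b : Fin N) (p : Fin (2 * q - 1)) (ψ : (Fin N → Fin (q + 1)) → ℂ)
    (m : Fin N → Fin (q + 1)) : ℂ :=
  ∑ i, ∑ j, (pairVec q p i j : ℂ) * ψ (upd2 m a b i j)

theorem amp_upd2 {a b : Fin N} (h : a ≠ b) (p : Fin (2 * q - 1))
    (ψ : (Fin N → Fin (q + 1)) → ℂ) (m : Fin N → Fin (q + 1)) (i j : Fin (q + 1)) :
    amp a b p ψ (upd2 m a b i j) = amp a b p ψ m := by
  simp only [amp, upd2_upd2 h]

theorem sum_agree {M : Type*} [AddCommMonoid M] {a b : Fin N} (h : a ≠ b)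
    (m : Fin N → Fin (q + 1)) (F : (Fin N → Fin (q + 1)) → M) :
    (∑ m', if (∀ c, c ≠ a → c ≠ b → m c = m' c) then F m' else 0) =
      ∑ i, ∑ j, F (upd2 m a b i j) := by
  rw [← Finset.sum_filter, ← Finset.sum_product']
  refine Finset.sum_nbij' (fun m' => (m' a, m' b)) (fun ij => upd2 m a b ij.1 ij.2) ?_ ?_ ?_ ?_ ?_
  · intro m' _; simp
  · intro ij _
    simp only [Finset.mem_filter, Finset.mem_univ, true_and]
    intro c hca hcb
    rw [upd2_of_ne hca hcb]
  · intro m' hm'
    simp only [Finset.mem_filter, Finset.mem_univ, true_and] at hm'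
    funext c
    by_cases hb : c = b
    · subst hb; simp [upd2]
    · by_cases ha : c = a
      · subst ha; simp [upd2, Function.update_of_ne hb]
      · simp only [upd2_of_ne ha hb]
        exact hm' c ha hb
  · intro ij _
    simp [upd2_left h, upd2_right]
  · intro m' hm'
    simp only [Finset.mem_filter, Finset.mem_univ, true_and] at hm'
    congr 1
    funext c
    by_cases hb : c = b
    · subst hb; simp [upd2]
    · by_cases ha : c = a
      · subst ha; simp [upd2, Function.update_of_ne hb]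
      · simp only [upd2_of_ne ha hb]
        exact (hm' c ha hb).symm

theorem pairProj_mulVec {a b : Fin N} (h : a ≠ b) (ψ : (Fin N → Fin (q + 1)) → ℂ)
    (m : Fin N → Fin (q + 1)) :
    (pairProj q N a b).mulVec ψ m =
      ∑ p : Fin (2 * q - 1), (pairVec q p (m a) (m b) : ℂ) * amp a b p ψ m := by
  have h1 : (pairProj q N a b).mulVec ψ m =
      ∑ m', if (∀ c, c ≠ a → c ≠ b → m c = m' c) then
        ((∑ p : Fin (2 * q - 1), pairVec q p (m a) (m b) * pairVec q p (m' a) (m' b) : ℝ) : ℂ)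
          * ψ m' else 0 := by
    simp only [Matrix.mulVec, dotProduct, pairProj, Matrix.of_apply]
    refine Finset.sum_congr rfl fun m' _ => ?_
    split_ifs <;> simp
  rw [h1, sum_agree h m (fun m' =>
    ((∑ p : Fin (2 * q - 1), pairVec q p (m a) (m b) * pairVec q p (m' a) (m' b) : ℝ) : ℂ)
          * ψ m')]
  simp only [upd2_left h, upd2_right, amp]
  simp only [Complex.ofReal_sum, Complex.ofReal_mul, Finset.sum_mul, Finset.mul_sum]
  rw [show (∑ x : Fin (q + 1), ∑ x_1 : Fin (q + 1), ∑ i : Fin (2 * q - 1),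
      (↑(pairVec q i (m a) (m b)) : ℂ) * ↑(pairVec q i x x_1) * ψ (upd2 m a b x x_1)) =
      ∑ x : Fin (q + 1), ∑ i : Fin (2 * q - 1), ∑ x_1 : Fin (q + 1),
      (↑(pairVec q i (m a) (m b)) : ℂ) * ↑(pairVec q i x x_1) * ψ (upd2 m a b x x_1) from
      Finset.sum_congr rfl fun _ _ => Finset.sum_comm, Finset.sum_comm]
  refine Finset.sum_congr rfl fun p _ => Finset.sum_congr rfl fun i _ =>
    Finset.sum_congr rfl fun j _ => ?_
  ring

/-- Summing over all replacements at `a, b` counts every configuration `(q+1)^2` times. -/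
theorem sum_upd2 {a b : Fin N} (h : a ≠ b) (f : (Fin N → Fin (q + 1)) → ℂ) :
    (∑ m, ∑ i, ∑ j, f (upd2 m a b i j)) = ((q : ℂ) + 1) ^ 2 * ∑ m, f m := by
  have key : (∑ x : (Fin N → Fin (q + 1)) × Fin (q + 1) × Fin (q + 1),
      f (upd2 x.1 a b x.2.1 x.2.2)) =
      ∑ x : (Fin N → Fin (q + 1)) × Fin (q + 1) × Fin (q + 1), f x.1 := by
    refine Finset.sum_nbij' (fun x => (upd2 x.1 a b x.2.1 x.2.2, x.1 a, x.1 b))
      (fun x => (upd2 x.1 a b x.2.1 x.2.2, x.1 a, x.1 b)) ?_ ?_ ?_ ?_ ?_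
    · intro x _; simp
    · intro x _; simp
    · rintro ⟨m, i, j⟩ _
      simp [upd2_upd2 h, upd2_self, upd2_left h, upd2_right]
    · rintro ⟨m, i, j⟩ _
      simp [upd2_upd2 h, upd2_self, upd2_left h, upd2_right]
    · rintro ⟨m, i, j⟩ _
      rfl
  rw [Fintype.sum_prod_type, Fintype.sum_prod_type] at key
  simp only [Fintype.sum_prod_type] at key
  rw [key, Finset.mul_sum]
  refine Finset.sum_congr rfl fun m _ => ?_
  simp only [Finset.sum_const, Finset.card_univ, Fintype.card_fin, nsmul_eq_mul]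
  push_cast
  ring

theorem dot_pairProj {a b : Fin N} (h : a ≠ b) (χ ψ : (Fin N → Fin (q + 1)) → ℂ) :
    star χ ⬝ᵥ (pairProj q N a b).mulVec ψ =
      (((q : ℂ) + 1) ^ 2)⁻¹ *
        ∑ p : Fin (2 * q - 1), ∑ m, star (amp a b p χ m) * amp a b p ψ m := by
  have hq : (((q : ℂ) + 1) ^ 2) ≠ 0 := by
    have : ((q : ℂ) + 1) ≠ 0 := by exact_mod_cast Nat.succ_ne_zero q
    positivity
  rw [eq_inv_mul_iff_mul_eq₀ hq]
  have h1 : star χ ⬝ᵥ (pairProj q N a b).mulVec ψ =
      ∑ m, ∑ p : Fin (2 * q - 1),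
        star (χ m) * ((pairVec q p (m a) (m b) : ℂ) * amp a b p ψ m) := by
    simp only [dotProduct, pairProj_mulVec h, Pi.star_apply, Finset.mul_sum]
  rw [h1, Finset.sum_comm, Finset.mul_sum]
  refine Finset.sum_congr rfl fun p _ => ?_
  rw [← sum_upd2 h (fun m => star (χ m) * ((pairVec q p (m a) (m b) : ℂ) * amp a b p ψ m))]
  refine Finset.sum_congr rfl fun m _ => ?_
  simp only [upd2_left h, upd2_right, amp_upd2 h]
  rw [show star (amp a b p χ m) = ∑ i, ∑ j, (pairVec q p i j : ℂ) * star (χ (upd2 m a b i j)) by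
    simp only [amp, star_sum, star_mul', Complex.star_def, Complex.conj_ofReal]]
  rw [Finset.sum_mul]
  refine Finset.sum_congr rfl fun i _ => ?_
  rw [Finset.sum_mul]
  refine Finset.sum_congr rfl fun j _ => ?_
  ring

theorem interaction_mulVec (ψ : (Fin N → Fin (q + 1)) → ℂ) :
    (interaction q N).mulVec ψ =
      ∑ a : Fin N, ∑ b : Fin N, if a < b then (pairProj q N a b).mulVec ψ else 0 := by
  simp only [interaction, Matrix.sum_mulVec]
  refine Finset.sum_congr rfl fun a _ => Finset.sum_congr rfl fun b _ => ?_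
  split_ifs <;> simp

theorem dot_interaction (χ ψ : (Fin N → Fin (q + 1)) → ℂ) :
    star χ ⬝ᵥ (interaction q N).mulVec ψ =
      ∑ a : Fin N, ∑ b : Fin N, if a < b then
        (((q : ℂ) + 1) ^ 2)⁻¹ *
        ∑ p : Fin (2 * q - 1), ∑ m, star (amp a b p χ m) * amp a b p ψ m else 0 := by
  rw [interaction_mulVec]
  simp only [dotProduct_sum]
  refine Finset.sum_congr rfl fun a _ => Finset.sum_congr rfl fun b _ => ?_
  split_ifs with hab
  · exact dot_pairProj hab.ne χ ψ
  · simp

theorem dot_interaction_self_re (ψ : (Fin N → Fin (q + 1)) → ℂ) :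
    (star ψ ⬝ᵥ (interaction q N).mulVec ψ).re =
      ∑ a : Fin N, ∑ b : Fin N, if a < b then
        (((q : ℝ) + 1) ^ 2)⁻¹ *
        ∑ p : Fin (2 * q - 1), ∑ m, ‖amp a b p ψ m‖ ^ 2 else 0 := by
  rw [dot_interaction]
  rw [Complex.re_sum]
  refine Finset.sum_congr rfl fun a _ => ?_
  rw [Complex.re_sum]
  refine Finset.sum_congr rfl fun b _ => ?_
  split_ifs with hab
  · have h1 : ∀ z : ℂ, star z * z = ((‖z‖ ^ 2 : ℝ) : ℂ) := by
      intro z
      rw [Complex.star_def, ← Complex.normSq_eq_conj_mul_self, Complex.normSq_eq_norm_sq]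
    simp only [h1]
    have h2 : (((q : ℂ) + 1) ^ 2)⁻¹ *
        ∑ p : Fin (2 * q - 1), ∑ m, ((‖amp a b p ψ m‖ ^ 2 : ℝ) : ℂ) =
        (((((q : ℝ) + 1) ^ 2)⁻¹ *
          ∑ p : Fin (2 * q - 1), ∑ m, ‖amp a b p ψ m‖ ^ 2 : ℝ) : ℂ) := by
      push_cast
      ring
    rw [h2, Complex.ofReal_re]
  · simp

theorem dot_interaction_self_nonneg (ψ : (Fin N → Fin (q + 1)) → ℂ) :
    0 ≤ (star ψ ⬝ᵥ (interaction q N).mulVec ψ).re := by
  rw [dot_interaction_self_re]
  refine Finset.sum_nonneg fun a _ => Finset.sum_nonneg fun b _ => ?_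
  split_ifs
  · positivity
  · exact le_refl _

theorem amp_eq_zero_of_dot_eq_zero {ψ : (Fin N → Fin (q + 1)) → ℂ}
    (h : (star ψ ⬝ᵥ (interaction q N).mulVec ψ).re = 0) {a b : Fin N} (hab : a < b)
    (p : Fin (2 * q - 1)) (m : Fin N → Fin (q + 1)) : amp a b p ψ m = 0 := by
  rw [dot_interaction_self_re] at h
  have hnn : ∀ a b : Fin N, 0 ≤ (if a < b then (((q : ℝ) + 1) ^ 2)⁻¹ *
        ∑ p : Fin (2 * q - 1), ∑ m, ‖amp a b p ψ m‖ ^ 2 else 0) := by
    intro a b
    split_ifs
    · positivity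
    · exact le_refl _
  have h1 := (Finset.sum_eq_zero_iff_of_nonneg
    (fun a _ => Finset.sum_nonneg fun b _ => hnn a b)).1 h a (Finset.mem_univ _)
  have h2 := (Finset.sum_eq_zero_iff_of_nonneg (fun b _ => hnn a b)).1 h1 b (Finset.mem_univ _)
  rw [if_pos hab] at h2
  have hq : (((q : ℝ) + 1) ^ 2)⁻¹ ≠ 0 := by positivity
  have h3 := (mul_eq_zero.1 h2).resolve_left hq
  have h4 := (Finset.sum_eq_zero_iff_of_nonneg
    (fun p _ => Finset.sum_nonneg fun m _ => by positivity)).1 h3 p (Finset.mem_univ _)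
  have h5 := (Finset.sum_eq_zero_iff_of_nonneg
    (fun m _ => by positivity)).1 h4 m (Finset.mem_univ _)
  simpa using h5

theorem interaction_mulVec_eq_zero {ψ : (Fin N → Fin (q + 1)) → ℂ}
    (h : ∀ a b : Fin N, a < b → ∀ p m, amp a b p ψ m = 0) :
    (interaction q N).mulVec ψ = 0 := by
  rw [interaction_mulVec]
  refine Finset.sum_eq_zero fun a _ => Finset.sum_eq_zero fun b _ => ?_
  split_ifs with hab
  · funext m
    rw [pairProj_mulVec hab.ne]
    simp [h a b hab]
  · rfl

/-- Hermitian symmetry of the interaction. -/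
theorem dot_interaction_symm (χ ψ : (Fin N → Fin (q + 1)) → ℂ) :
    star χ ⬝ᵥ (interaction q N).mulVec ψ = star (star ψ ⬝ᵥ (interaction q N).mulVec χ) := by
  rw [dot_interaction, dot_interaction, star_sum]
  refine Finset.sum_congr rfl fun a _ => ?_
  rw [star_sum]
  refine Finset.sum_congr rfl fun b _ => ?_
  split_ifs with hab
  · rw [star_mul', star_sum]
    congr 1
    · simp
    · refine Finset.sum_congr rfl fun p _ => ?_
      rw [star_sum]
      refine Finset.sum_congr rfl fun m _ => ?_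
      rw [star_mul', star_star, mul_comm]
  · simp

end Crest.Agent.R340
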